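import Vale.Agent.P236M.Op

/-!
# P236, block K2: the staged substitution computes `RR`

In `Pb B = B[X_0, X_1, …]` the variables `X_0, …, X_3` are the coordinates `y_1, …, y_4` of the arrow
`e_1(y_1) e_2(y_2) e_3(y_3) e_4(y_4)`, and `X_4, …, X_7` are the coordinates of a second arrow (or the
values of the `v_i` at the end point).  Main theorem: `algc`.
-/

noncomputable section

namespace Vale.Agent.P236M

open Vale.Agent.P236A Vale.Agent.P236B MvPolynomial

variable (p : ℕ) [hp : Fact p.Prime] {k : Type} [CommRing k] {B B' : Type} [CommRing B]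
  [CommRing B']

/-! ### dependence on the coordinates -/

omit hp in
theorem le_of_mem_vars {τ R : Type} [CommRing R] {𝒢 : Grd R} (h𝒢 : 𝒢.NonNeg) {wt : τ → ℤ}
    (hw : ∀ s, 0 ≤ wt s) {w : ℤ} {q : MvPolynomial τ R} (hq : q ∈ (𝒢.poly wt).G w) {s : τ}
    (hs : s ∈ q.vars) : wt s ≤ w := by
  obtain ⟨d, hd, hs⟩ := (mem_vars_iff_mem_support s).1 hs
  refine le_trans ?_ (h𝒢.le hq (mem_support_iff.1 hd))
  rw [Finsupp.weight_apply, Finsupp.sum]
  refine le_trans ?_ (Finset.single_le_sum (fun s _ => nsmul_nonneg (hw s) _) hs)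
  have h1 : (1 : ℤ) ≤ d s := by exact_mod_cast Nat.pos_of_ne_zero (Finsupp.mem_support_iff.1 hs)
  have h2 := hw s
  rw [nsmul_eq_mul]
  nlinarith

theorem wz_lt {i j : ℕ} (h : i < j) : wz p i < wz p j := by
  have h1 : (p : ℤ) ^ (i + 1) < (p : ℤ) ^ (j + 1) :=
    pow_lt_pow_right₀ (by exact_mod_cast hp.out.one_lt) (by omega)
  rw [wz, wz]
  omega

theorem le_of_wz {i j : ℕ} (h : wz p i ≤ wz p j) : i ≤ j :=
  not_lt.1 fun h' => (wz_lt p h').not_ge h

theorem eta_congr {v v' t t' : ℕ → B} {i : ℕ} (hv : ∀ j ≤ i, v j = v' j)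
    (ht : ∀ j ≤ i, t j = t' j) : eta p v t i = eta p v' t' i := by
  refine eval₂Hom_congr' rfl (fun s hs _ => ?_) rfl
  have h := le_of_mem_vars Grd.nonNeg_triv (by rintro (j | j) <;> exact wz_nonneg p j)
    (Grd.isWH_iff.1 (isWH_etaU p i)) hs
  rcases s with j | j
  exacts [hv j (le_of_wz p h), ht j (le_of_wz p h)]

theorem del_congr {v v' t t' u u' : ℕ → B} {i : ℕ} (hv : ∀ j ≤ i, v j = v' j)
    (ht : ∀ j ≤ i, t j = t' j) (hu : ∀ j ≤ i, u j = u' j) : del p v t u i = del p v' t' u' i := by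
  refine eval₂Hom_congr' rfl (fun s hs _ => ?_) rfl
  have h := le_of_mem_vars Grd.nonNeg_triv (by rintro ((j | j) | j) <;> exact wz_nonneg p j)
    (Grd.isWH_iff.1 (isWH_delU p i)) hs
  rcases s with (j | j) | j
  exacts [hv j (le_of_wz p h), ht j (le_of_wz p h), hu j (le_of_wz p h)]

theorem del_top (v t : ℕ → B) {u u' : ℕ → B} {i : ℕ} (h : ∀ j < i, u j = u' j) :
    del p v t u i = del p v t u' i + (u i - u' i) := by
  obtain ⟨N, hN⟩ : ∃ N, p ^ (i + 1) = N + 1 :=
    ⟨p ^ (i + 1) - 1, by have := one_le_pp p (i + 1); omega⟩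
  have h1 := fS_compare p (hz p (eta p v t)) h
  have h2 := tm_mem p (u i - u' i) i
  rw [hN] at h1 h2
  have h3 := Vale.Agent.P251.F.mem_ordI_unit.1 (coeff_mul_sub (fT_mem p v t) h2 h1) (N + 1)
    (by omega)
  rw [map_sub, map_sub, coeff_tm, if_pos hN.symm, sub_eq_zero, ← hN] at h3
  change PowerSeries.coeff _ (fT p v t * fT p _ u).val -
    PowerSeries.coeff _ (fT p v t * fT p _ u').val = _ at h3
  rw [del_spec, del_spec, fT, fT, fS_coeff_sub p _ fun j hj =>
    del_congr p (fun _ _ => rfl) (fun _ _ => rfl) fun l hl => h l (by omega)] at h3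
  rw [← h3, add_sub_cancel]

theorem del_low (v t : ℕ → B) {u : ℕ → B} {i : ℕ} (h : ∀ j < i, u j = 0) :
    del p v t u i = t i + u i := by
  rw [del_top p v t (u' := fun _ => 0) h, del_zero_right, sub_zero]

theorem del_low' (v : ℕ → B) {t : ℕ → B} (u : ℕ → B) {i : ℕ} (h : ∀ j ≤ i, t j = 0) :
    del p v t u i = u i := by
  rw [del_congr p (fun _ _ => rfl) h fun _ _ => rfl, del_zero_left]

/-! ### the objects -/

/-- the polynomial ring -/
abbrev Pb (B : Type) [CommRing B] : Type := MvPolynomial ℕ B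

/-- substitution of `b` for the variable `X i` -/
def tau (i : ℕ) (b : Pb B) : Pb B →ₐ[B] Pb B := aeval (Function.update X i b)

/-- the base point -/
def vb (x : Av k →+* B) : ℕ → Pb B := fun i => C (x (X i))

variable (B) in
/-- the arrow `e_(n+1)(y_(n+1))` -/
def Yn (n : ℕ) : ℕ → Pb B := Pi.single n (X n)

/-- the end point of `e_1(y_1) ⋯ e_n(y_n)` -/
def VV (x : Av k →+* B) : ℕ → ℕ → Pb B
  | 0 => vb x
  | n + 1 => eta p (VV x n) (Yn B n)

variable (B) in
/-- the second arrow -/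
def aa : ℕ → Pb B := fun i => if i < 4 then X (i + 4) else 0

/-- the coordinates of `e_(n+1)(y_(n+1)) a` -/
def bb (x : Av k →+* B) (n m : ℕ) : Pb B := del p (VV p x n) (Yn B n) (aa B) m

/-- the coordinates of `e_1(y_1) e_2(y_2) e_3(y_3) e_4(y_4)` -/
def tt (x : Av k →+* B) : ℕ → Pb B := del p (VV p x 0) (Yn B 0)
  (del p (VV p x 1) (Yn B 1) (del p (VV p x 2) (Yn B 2) (Yn B 3)))

/-- `y_3` as a function of the `t_i` -/
def g3 (x : Av k →+* B) : Pb B := X 2 - (tt p x 2 - X 2)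

/-- `y_4` as a function of `y_1, y_2, y_3, t_4` -/
def g4 (x : Av k →+* B) : Pb B := X 3 - (tt p x 3 - X 3)

/-- `v_(i+1) ↦ X (i + 4)` -/
def ren (x : Av k →+* B) : Av k →+* Pb B := eval₂Hom (C.comp (x.comp C)) fun i => X (i + 4)

/-- the functional on `t_1, …, t_4` -/
def Phi0 (x : Av k →+* B) (ξ : Op k) : Pb B →ₗ[B] B :=
  lin fun M => if M.support ⊆ Finset.range 4 then x (ξ M) else 0

/-- the substitution of the end point -/
def sW (x : Av k →+* B) : Pb B →ₐ[B] Pb B :=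
  (tau 7 (VV p x 4 3)).comp ((tau 6 (VV p x 4 2)).comp ((tau 5 (VV p x 4 1)).comp
    (tau 4 (VV p x 4 0))))

/-- from the coordinates `y` to the coordinates `t` -/
def sG (x : Av k →+* B) : Pb B →ₐ[B] Pb B := (tau 2 (g3 p x)).comp (tau 3 (g4 p x))

/-- the functional on `y_1, …, y_4, η v_1, …, η v_4` -/
def Th (x : Av k →+* B) (ξ : Op k) : Pb B →ₗ[B] B :=
  Phi0 x ξ ∘ₗ ((sG p x).comp (sW p x)).toLinearMap

/-- translation by `e_1(y_1)` -/
def s0 (x : Av k →+* B) : Pb B →ₐ[B] Pb B :=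
  (tau 7 (bb p x 0 3)).comp ((tau 6 (bb p x 0 2)).comp ((tau 5 (bb p x 0 1)).comp
    (tau 4 (bb p x 0 0))))

/-- translation by `e_2(y_2)` -/
def s1 (x : Av k →+* B) : Pb B →ₐ[B] Pb B :=
  (tau 7 (bb p x 1 3)).comp ((tau 6 (bb p x 1 2)).comp (tau 5 (bb p x 1 1)))

/-- translation by `e_3(y_3)` -/
def s2 (x : Av k →+* B) : Pb B →ₐ[B] Pb B := (tau 7 (bb p x 2 3)).comp (tau 6 (bb p x 2 2))

/-- translation by `e_4(y_4)` -/
def s3 (x : Av k →+* B) : Pb B →ₐ[B] Pb B := tau 7 (bb p x 3 3)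

/-- translation by the first arrow -/
def sB (x : Av k →+* B) : Pb B →ₐ[B] Pb B :=
  (s3 p x).comp ((s2 p x).comp ((s1 p x).comp (s0 p x)))

/-- the exponent of `a ^ L` -/
def sh (L : ℕ →₀ ℕ) : ℕ →₀ ℕ := L.mapDomain (· + 4)

variable (B) in
/-- the projection to the polynomials in `y_1, …, y_4` -/
def jj : Pb B →ₐ[B] Pb B := aeval fun i => if i < 4 then X i else 0

omit hp in
theorem tau_self (i : ℕ) (b : Pb B) : tau i b (X i) = b := by simp [tau]

omit hp in
theorem tau_ne {i j : ℕ} (h : j ≠ i) (b : Pb B) : tau i b (X j) = X j := by simp [tau, h]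

omit hp in
theorem jj_X {i : ℕ} (h : i < 4) : jj B (X i) = X i := by simp [jj, h]

/-- `φ` fixes the first `n` variables -/
def Fx (n : ℕ) (φ : Pb B →ₐ[B] Pb B) : Prop := ∀ i < n, φ (X i) = X i

variable {p} {x : Av k →+* B} {φ ψ : Pb B →ₐ[B] Pb B} {n : ℕ}

omit hp in
theorem fx_tau {i : ℕ} (h : n ≤ i) (b : Pb B) : Fx n (tau i b) := fun j hj => tau_ne (by omega) b

omit hp in
theorem Fx.comp (h : Fx n φ) (h' : Fx n ψ) : Fx n (φ.comp ψ) := fun i hi => by
  rw [AlgHom.comp_apply, h' i hi, h i hi]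

omit hp in
theorem map_Yn (φ : Pb B →ₐ[B] Pb B) (m : ℕ) :
    (fun i => φ (Yn B m i)) = Pi.single m (φ (X m)) :=
  funext fun i => Pi.apply_single (fun _ => φ) (fun _ => map_zero φ) m _ i

omit hp in
theorem Fx.Yn (h : Fx n φ) {m : ℕ} (hm : m < n) : (fun i => φ (Yn B m i)) = Yn B m := by
  rw [map_Yn, h m hm, P236M.Yn]

theorem map_eta' (φ : Pb B →ₐ[B] Pb B) (v t : ℕ → Pb B) (i : ℕ) :
    φ (eta p v t i) = eta p (fun i => φ (v i)) (fun i => φ (t i)) i :=
  map_eta p φ.toRingHom v t i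

theorem map_del' (φ : Pb B →ₐ[B] Pb B) (v t u : ℕ → Pb B) (i : ℕ) :
    φ (del p v t u i) = del p (fun i => φ (v i)) (fun i => φ (t i)) (fun i => φ (u i)) i :=
  map_del p φ.toRingHom v t u i

theorem Fx.VV (h : Fx n φ) {m : ℕ} (hm : m ≤ n) : (fun i => φ (VV p x m i)) = VV p x m := by
  induction m with
  | zero => exact funext fun i => φ.commutes _
  | succ m ih =>
    funext i
    rw [P236M.VV, map_eta', ih (by omega), h.Yn hm]

theorem Fx.tt (h : Fx 4 φ) (i : ℕ) : φ (tt p x i) = tt p x i := by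
  simp only [P236M.tt, map_del', h.VV (show 0 ≤ 4 by omega), h.VV (show 1 ≤ 4 by omega),
    h.VV (show 2 ≤ 4 by omega), h.Yn (show 0 < 4 by omega), h.Yn (show 1 < 4 by omega),
    h.Yn (show 2 < 4 by omega), h.Yn (show 3 < 4 by omega)]

theorem eta_tt : eta p (vb x) (tt p x) = VV p x 4 := by
  rw [tt]
  exact (eta_del p _ _ _).trans ((eta_del p _ _ _).trans (eta_del p _ _ _))

theorem del_tt (u : ℕ → Pb B) : del p (vb x) (tt p x) u = del p (VV p x 0) (Yn B 0)
    (del p (VV p x 1) (Yn B 1) (del p (VV p x 2) (Yn B 2) (del p (VV p x 3) (Yn B 3) u))) := by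
  rw [tt]
  exact (del_assoc p _ _ _ _).trans (congrArg _ ((del_assoc p _ _ _ _).trans
    (congrArg _ (del_assoc p _ _ _ _))))

theorem del_single (v : ℕ → B) {i j : ℕ} (a b : B) {l : ℕ} (hl : l ≤ j) :
    del p v (Pi.single i a) (Pi.single j b) l = (Pi.single i a : ℕ → B) l +
      (Pi.single j b : ℕ → B) l :=
  del_low p v _ fun m hm => Pi.single_eq_of_ne (by omega) _

theorem tt_zero : tt p x 0 = X 0 := by simp [tt, del_one, Yn]

theorem tt_one : tt p x 1 = X 1 := by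
  rw [tt, del_low p _ _ fun j hj => by
    obtain rfl : j = 0 := by omega
    simp [del_one, Yn], del_low p _ _ fun j hj => by
    obtain rfl : j = 0 := by omega
    simp [del_one, Yn], Yn, Yn, Yn, Yn, del_single _ _ _ (by omega)]
  simp

theorem tau_tt_two (b : Pb B) : tau 2 b (tt p x 2) = tt p x 2 + (b - X 2) := by
  have h : Fx 2 (tau 2 b) := fx_tau le_rfl b
  have h1 : ∀ j ≤ 2, del p (VV p x 2) (Pi.single 2 b) (Yn B 3) j = (Pi.single 2 b : ℕ → _) j ∧
      del p (VV p x 2) (Yn B 2) (Yn B 3) j = Yn B 2 j := fun j hj => by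
    rw [Yn, Yn, del_single _ _ _ (by omega), del_single _ _ _ (by omega),
      Pi.single_eq_of_ne (show j ≠ 3 by omega), add_zero, add_zero]
    exact ⟨rfl, rfl⟩
  have h2 : ∀ j < 2, del p (VV p x 2) (Pi.single 2 b) (Yn B 3) j =
      del p (VV p x 2) (Yn B 2) (Yn B 3) j := fun j hj => by
    rw [(h1 j hj.le).1, (h1 j hj.le).2, Yn, Pi.single_eq_of_ne hj.ne, Pi.single_eq_of_ne hj.ne]
  simp only [tt, map_del', h.VV (show 0 ≤ 2 by omega), h.VV (show 1 ≤ 2 by omega),
    h.VV (show 2 ≤ 2 by omega), h.Yn (show 0 < 2 by omega), h.Yn (show 1 < 2 by omega),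
    map_Yn, tau_self, tau_ne (show 3 ≠ 2 by omega)]
  change del p _ _ (del p _ _ (del p _ _ (Yn B 3))) 2 = _
  rw [del_top p _ _ fun j hj => del_congr p (fun _ _ => rfl) (fun _ _ => rfl)
    fun l hl => h2 l (by omega), del_top p _ _ h2, (h1 2 le_rfl).1, (h1 2 le_rfl).2,
    Pi.single_eq_same, add_sub_cancel_left, show Yn B 2 2 = X 2 from Pi.single_eq_same _ _]

theorem tau_tt_three (b : Pb B) {i : ℕ} (hi : i ≤ 3) :
    tau 3 b (tt p x i) = tt p x i + ((Pi.single 3 b : ℕ → _) i - Yn B 3 i) := by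
  have h : Fx 3 (tau 3 b) := fx_tau le_rfl b
  have h2 : ∀ j < i, (Pi.single 3 b : ℕ → _) j = Yn B 3 j := fun j hj => by
    rw [Yn, Pi.single_eq_of_ne (by omega), Pi.single_eq_of_ne (by omega)]
  have h3 := fun j (hj : j < i) => del_congr p (v := VV p x 2) (t := Yn B 2) (i := j)
    (fun _ _ => rfl) (fun _ _ => rfl) fun l hl => h2 l (by omega)
  simp only [tt, map_del', h.VV (show 0 ≤ 3 by omega), h.VV (show 1 ≤ 3 by omega),
    h.VV (show 2 ≤ 3 by omega), h.Yn (show 0 < 3 by omega), h.Yn (show 1 < 3 by omega),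
    h.Yn (show 2 < 3 by omega), map_Yn, tau_self]
  rw [del_top p _ _ fun j hj => del_congr p (fun _ _ => rfl) (fun _ _ => rfl)
    fun l hl => h3 l (by omega), del_top p _ _ h3, del_top p _ _ h2, add_sub_cancel_left,
    add_sub_cancel_left]

theorem sG_tt {i : ℕ} (hi : i < 4) : sG p x (tt p x i) = X i := by
  rw [sG, AlgHom.comp_apply, tau_tt_three _ (by omega), Yn]
  interval_cases i
  · simp [tt_zero, tau_ne]
  · simp [tt_one, tau_ne]
  · simp [tau_tt_two, g3]
  · rw [Pi.single_eq_same, Pi.single_eq_same, g4,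
      show tt p x 3 + (X 3 - (tt p x 3 - X 3) - X 3) = X 3 by ring, tau_ne (by omega)]

theorem fx_sW : Fx 4 (sW p x) := (fx_tau (by omega) _).comp ((fx_tau (by omega) _).comp
  ((fx_tau (by omega) _).comp (fx_tau (by omega) _)))

theorem tau_VV {i : ℕ} (h : 4 ≤ i) (b : Pb B) (j : ℕ) : tau i b (VV p x 4 j) = VV p x 4 j :=
  congrFun ((fx_tau h b).VV le_rfl) j

theorem sW_X {i : ℕ} (hi : i < 4) : sW p x (X (i + 4)) = VV p x 4 i := by
  interval_cases i <;> simp [sW, tau_self, tau_ne, tau_VV]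

theorem tau_bb {i : ℕ} (b : Pb B) {n m : ℕ} (hn : n < 4) (h : m + 4 < i) :
    tau i b (bb p x n m) = bb p x n m := by
  have h1 : Fx 4 (tau i b) := fx_tau (by omega) b
  rw [bb, map_del', h1.VV hn.le, h1.Yn hn]
  refine del_congr p (fun _ _ => rfl) (fun _ _ => rfl) fun j hj => ?_
  rw [aa]
  split_ifs
  exacts [tau_ne (by omega) b, map_zero _]

theorem bb_low {n m : ℕ} (h : m < n) : bb p x n m = aa B m :=
  del_low' p _ _ fun j hj => Pi.single_eq_of_ne (by omega) _

theorem s0_aa {i : ℕ} (hi : i < 4) : s0 p x (aa B i) = bb p x 0 i := by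
  interval_cases i <;> simp [s0, aa, tau_self, tau_ne, tau_bb]

theorem s1_aa {i : ℕ} (hi : i < 4) : s1 p x (aa B i) = bb p x 1 i := by
  interval_cases i <;> simp [s1, aa, tau_self, tau_ne, tau_bb, bb_low]

theorem s2_aa {i : ℕ} (hi : i < 4) : s2 p x (aa B i) = bb p x 2 i := by
  interval_cases i <;> simp [s2, aa, tau_self, tau_ne, tau_bb, bb_low]

theorem s3_aa {i : ℕ} (hi : i < 4) : s3 p x (aa B i) = bb p x 3 i := by
  interval_cases i <;> simp [s3, aa, tau_self, tau_ne, bb_low]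

theorem Fx.del (h : Fx 4 φ) {m i : ℕ} (hm : m < 4) {u u' : ℕ → Pb B}
    (hu : ∀ j ≤ i, φ (u j) = u' j) :
    φ (del p (P236M.VV p x m) (P236M.Yn B m) u i) = del p (P236M.VV p x m) (P236M.Yn B m) u' i := by
  rw [map_del', h.VV hm.le, h.Yn hm]
  exact del_congr p (fun _ _ => rfl) (fun _ _ => rfl) hu

theorem sB_aa {i : ℕ} (hi : i < 4) : sB p x (aa B i) = del p (vb x) (tt p x) (aa B) i := by
  have h1 : Fx 4 (s1 p x) := (fx_tau (by omega) _).comp ((fx_tau (by omega) _).comp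
    (fx_tau (by omega) _))
  have h2 : Fx 4 (s2 p x) := (fx_tau (by omega) _).comp (fx_tau (by omega) _)
  have h3 : Fx 4 (s3 p x) := fx_tau (by omega) _
  have e1 : ∀ j < 4, s1 p x (bb p x 0 j) = del p (VV p x 0) (Yn B 0) (bb p x 1) j :=
    fun j hj => h1.del (by omega) fun l hl => s1_aa (by omega)
  have e2 : ∀ j < 4, s2 p x (bb p x 1 j) = del p (VV p x 1) (Yn B 1) (bb p x 2) j :=
    fun j hj => h2.del (by omega) fun l hl => s2_aa (by omega)
  have e3 : ∀ j < 4, s3 p x (bb p x 2 j) = del p (VV p x 2) (Yn B 2) (bb p x 3) j :=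
    fun j hj => h3.del (by omega) fun l hl => s3_aa (by omega)
  have e4 : ∀ j < 4, s3 p x (del p (VV p x 1) (Yn B 1) (bb p x 2) j) =
      del p (VV p x 1) (Yn B 1) (del p (VV p x 2) (Yn B 2) (bb p x 3)) j :=
    fun j hj => h3.del (by omega) fun l hl => e3 l (by omega)
  rw [del_tt, sB, AlgHom.comp_apply, AlgHom.comp_apply, AlgHom.comp_apply, s0_aa hi, e1 i hi,
    h2.del (by omega) fun l hl => e2 l (by omega), h3.del (by omega) fun l hl => e4 l (by omega)]
  rfl

theorem supp_of_mz {L : ℕ →₀ ℕ} (h : mz p L < wz p 4) : L.support ⊆ Finset.range 4 := by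
  intro i hi
  have h1 := le_of_mem_vars (Grd.nonNeg_triv (B := ℤ)) (wz_nonneg p)
    (Grd.monomial_mem (wz p) L (Grd.triv ℤ).one_mem)
    (by rw [vars_monomial one_ne_zero]; exact hi)
  rw [zero_add] at h1
  rw [Finset.mem_range]
  exact not_le.1 fun h2 => (h1.trans_lt h).not_ge ((le_of_eq rfl).trans (by
    rcases h2.eq_or_lt with rfl | h2
    exacts [le_rfl, (wz_lt p h2).le]))

omit hp in
theorem prod_aa {L : ℕ →₀ ℕ} (h : L.support ⊆ Finset.range 4) :
    (L.prod fun i e => aa B i ^ e) = monomial (sh L) 1 := by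
  rw [monomial_eq, C_1, one_mul, sh,
    Finsupp.prod_mapDomain_index_inj (add_left_injective 4)]
  exact Finset.prod_congr rfl fun i hi =>
    congrArg (· ^ _) (if_pos (Finset.mem_range.1 (h hi)))

omit hp in
theorem jj_monomial (I : ℕ →₀ ℕ) : jj B (monomial I 1) =
    if I.support ⊆ Finset.range 4 then monomial I 1 else 0 := by
  rw [jj, aeval_monomial, map_one, one_mul]
  split_ifs with h
  · rw [monomial_eq, C_1, one_mul]
    exact Finset.prod_congr rfl fun i hi =>
      congrArg (· ^ _) (if_pos (Finset.mem_range.1 (h hi)))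
  · obtain ⟨i, h1, h2⟩ := Finset.not_subset.1 h
    exact Finset.prod_eq_zero h1 (by
      beta_reduce
      rw [if_neg (by simpa using h2), zero_pow (Finsupp.mem_support_iff.1 h1)])

variable (B) in
/-- the filtration by the weight -/
def gr0 : Grd B where
  G w := if 0 ≤ w then ⊤ else ⊥
  one_mem := by simp
  mul_mem {v w a b} ha hb := by
    split_ifs at ha hb ⊢ with h1 h2 h3 <;> first | trivial | omega | simp_all

omit hp in
theorem nonNeg_gr0 : (gr0 B).NonNeg := fun w a h hw => by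
  simpa [gr0, hw.not_ge] using h

theorem map_gr0 (x : Av k →+* B) : (gA p k).Map (gr0 B) x := fun w a h => by
  by_cases hw : 0 ≤ w
  · simp [gr0, hw]
  · rw [nonNeg_gA p _ _ h (not_le.1 hw), map_zero]
    exact zero_mem _

theorem lt_of_mem_vars {R : Type} [CommRing R] {𝒢 : Grd R} (h𝒢 : 𝒢.NonNeg) {w : ℤ}
    {q : MvPolynomial ℕ R} (hq : q ∈ (𝒢.poly (wz p)).G w) (hw : w < wz p 4) {s : ℕ}
    (hs : s ∈ q.vars) : s < 4 :=
  not_le.1 fun h => ((le_of_mem_vars h𝒢 (wz_nonneg p) hq hs).trans_lt hw).not_ge (by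
    rcases h.eq_or_lt with rfl | h
    exacts [le_rfl, (wz_lt p h).le])

theorem sW_ren {w : ℤ} {b : Av k} (hb : b ∈ (gA p k).G w) (hw : w < wz p 4) :
    sW p x (ren x b) = tgt p (C.comp x) (tt p x) b := by
  have h : (sW p x).toRingHom.comp (ren x) =
      eval₂Hom (C.comp (x.comp C)) fun i => sW p x (X (i + 4)) :=
    av_ext (fun a => by simp [ren]) fun i => by simp [ren]
  refine (DFunLike.congr_fun h b).trans (eval₂Hom_congr' rfl (fun i hi _ => ?_) rfl)
  rw [sW_X (lt_of_mem_vars Grd.nonNeg_triv hb hw hi), ← eta_tt]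
  rfl

theorem jj_tgt (b : Av k) : jj B (tgt p (C.comp x) (tt p x) b) = tgt p (C.comp x) (tt p x) b := by
  refine DFunLike.congr_fun ((comp_tgt p (jj B).toRingHom _ _).trans ?_) b
  congr 1
  · exact RingHom.ext fun a => (jj B).commutes _
  · exact funext fun i => Fx.tt (fun _ => jj_X) i

theorem Phi0_sG {w : ℤ} {q : Pb B} (hq : q ∈ ((gr0 B).poly (wz p)).G w) (hw : w < wz p 4)
    (ξ : Op k) : Phi0 x ξ (sG p x (eval₂Hom C (tt p x) q)) = lin (fun J => x (ξ J)) q := by
  have h : (sG p x).toRingHom.comp (eval₂Hom C (tt p x)) =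
      eval₂Hom C fun i => sG p x (tt p x i) :=
    MvPolynomial.ringHom_ext (fun a => by simp) fun i => by simp
  rw [show sG p x (eval₂Hom C (tt p x) q) = q from (DFunLike.congr_fun h q).trans
    ((eval₂Hom_congr' rfl (fun i hi _ => sG_tt (lt_of_mem_vars nonNeg_gr0 hq hw hi)) rfl).trans
      (eval₂_eta q))]
  exact lin_congr fun J hJ => if_pos (supp_of_mz ((nonNeg_gr0.le hq hJ).trans_lt hw))

variable {ι : Type} [Fintype ι] {Γ : Gens ι}

/-- **The staged substitution computes `RR`.** -/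
theorem algc {δ' δ : Mat ι (Av k)} (hδ : HomD p Γ δ) (e e'' : ι) (Y : Pb B →ₗ[B] B)
    {K : ℕ →₀ ℕ} (hK : mz p K + Γ.wt e < wz p 4)
    (hY : ∀ I L : ℕ →₀ ℕ, I.support ⊆ Finset.range 4 → L.support ⊆ Finset.range 4 →
      Y (monomial (I + sh L) 1) = ∑ e', Th p x (δ' e' e'') (monomial I 1 * ren x (δ e e' L))) :
    Y (sB p x (monomial (sh K) 1)) = x (RR p δ' δ e e'' K) := by
  have hw : (0 : ℤ) ≤ Γ.wt e := Nat.cast_nonneg _
  have hK4 := supp_of_mz (p := p) (L := K) (by omega)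
  have h1 : sB p x (monomial (sh K) 1) =
      eval₂Hom (jj B).toRingHom (aa B) (trL p C x (tt p x) (monomial K 1)) := by
    rw [← prod_aa hK4, trL, eval₂Hom_monomial, map_one, one_mul, map_finsuppProd, map_finsuppProd]
    refine Finset.prod_congr rfl fun i hi => ?_
    beta_reduce
    rw [map_pow, map_pow, sB_aa (Finset.mem_range.1 (hK4 hi)), map_del]
    simp only [eval₂Hom_C, eval₂Hom_X', AlgHom.toRingHom_eq_coe, RingHom.coe_coe,
      Fx.tt fun _ => jj_X, algHom_C, algebraMap_eq]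
    rfl
  have h2 : ∀ e', x (cmp p (δ' e' e'') (δ e e') K) = Phi0 x (δ' e' e'') (sG p x (jj B
      (lin (fun L => tgt p (C.comp x) (tt p x) (δ e e' L))
        (trL p C x (tt p x) (monomial K 1))))) := fun e' => by
    have h3 := actB_mem p (map_gr0 x) (hδ.mem p Γ e e')
      (Grd.monomial_mem (wz p) K (gr0 B).one_mem)
    have h4 : (jj B).toRingHom.comp (eval₂Hom C (tt p x)) = eval₂Hom C (tt p x) :=
      MvPolynomial.ringHom_ext (fun a => by simp) fun i => by simp [Fx.tt fun _ => jj_X]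
    have h5 : (0 : ℤ) ≤ Γ.wt e' := Nat.cast_nonneg _
    rw [← ev_actB, show jj B (eval₂Hom C (tt p x) _) = _ from DFunLike.congr_fun h4 _,
      Phi0_sG h3 (by rw [mz] at hK; omega), lin_actB, lin_one]
  have h3 : ∀ L, coeff L (trL p C x (tt p x) (monomial K 1)) ≠ 0 → mz p L ≤ mz p K :=
    fun L hL => mz_le_of_RG (k := k) fun h0 => hL (by
      have h4 := map_RB p x (RingHom.id _) (monomial K 1)
      rw [map_monomial, x.map_one, RingHom.comp_id, RB_id] at h4
      rw [← map_RB_eq, ← h4, coeff_map, coeff_map, h0, map_zero, map_zero])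
  rw [RR_eq, map_sum, h1]
  simp only [h2]
  generalize trL p C x (tt p x) (monomial K 1) = q at h3
  conv_lhs => rw [q.as_sum]
  simp only [lin_apply, map_sum]
  rw [Finset.sum_comm]
  refine Finset.sum_congr rfl fun L hL => ?_
  have hL' := h3 L (mem_support_iff.1 hL)
  have hL4 := supp_of_mz (p := p) (L := L) (by omega)
  rw [eval₂Hom_monomial, prod_aa hL4]
  refine (lin_ext (f := Y ∘ₗ LinearMap.mulRight B (monomial (sh L) 1) ∘ₗ (jj B).toLinearMap)
    (f' := ∑ e', Th p x (δ' e' e'') ∘ₗ LinearMap.mulRight B (ren x (δ e e' L)) ∘ₗ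
      (jj B).toLinearMap) fun I _ => ?_).trans ?_
  · simp only [LinearMap.sum_apply, LinearMap.comp_apply, AlgHom.toLinearMap_apply, jj_monomial,
      LinearMap.mulRight_apply]
    split_ifs with hI
    · rw [monomial_mul, mul_one, hY I L hI hL4]
    · simp
  · rw [LinearMap.sum_apply]
    refine Finset.sum_congr rfl fun e' _ => ?_
    have h5 : (0 : ℤ) ≤ Γ.wt e' := Nat.cast_nonneg _
    have h6 : (sW p x).comp (jj B) = jj B := MvPolynomial.algHom_ext fun i => by
      by_cases hi : i < 4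
      · rw [AlgHom.comp_apply, jj_X hi, fx_sW i hi]
      · simp [jj, hi]
    simp only [LinearMap.comp_apply, AlgHom.toLinearMap_apply, LinearMap.mulRight_apply, Th,
      AlgHom.comp_apply]
    rw [map_mul (sW p x), map_mul (jj B), jj_tgt, sW_ren (hδ.mem p Γ e e' L) (by omega),
      ← AlgHom.comp_apply (sW p x), h6]

end Vale.Agent.P236M
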