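import Vale.Agent.P236M.Algc

/-!
# P236, block K3: the functional `Th` computes the differential of the small complex
-/

noncomputable section

namespace Vale.Agent.P236M

open Vale.Agent.P236A Vale.Agent.P236B MvPolynomial

variable {p : ℕ} [hp : Fact p.Prime] {k : Type} [CommRing k] {B : Type} [CommRing B]
  {x : Av k →+* B}

theorem fx_sG_C (b : B) : sG p x (C b) = C b := (sG p x).commutes b

theorem Th_ren {w : ℤ} {b : Av k} (hb : b ∈ (gA p k).G w) (hw : w < wz p 4) (ξ : Op k) :
    Th p x ξ (ren x b) = x (act0 p ξ b) := by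
  have h := DFunLike.congr_fun (comp_etaB p (eval₂Hom C (tt p x)) x) b
  simp only [eval₂Hom_comp_C, eval₂Hom_X', RingHom.comp_apply] at h
  change Phi0 x ξ (sG p x (sW p x (ren x b))) = _
  rw [sW_ren hb hw, ← h, Phi0_sG (wt_etaB p (map_gr0 x) _ _ hb) hw, act0, map_lin, map_etaR]

omit hp in
theorem ren_monomial (K : ℕ →₀ ℕ) (c : k) :
    ren x (monomial K c) = monomial (sh K) (x (C c)) := by
  rw [ren, eval₂Hom_monomial, monomial_eq, sh,
    Finsupp.prod_mapDomain_index_inj (add_left_injective 4)]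
  rfl

theorem X0_single {ι : Type} [Fintype ι] [DecidableEq ι] (δ : Mat ι (Av k)) (g g' : ι)
    (b : Av k) : X0 p δ (Pi.single g b) g' = act0 p (δ g g') b := by
  rw [X0, Finset.sum_eq_single g, Pi.single_eq_same]
  · intro g₁ _ h
    rw [Pi.single_eq_of_ne h, act0_zero]
  · exact fun h => absurd (Finset.mem_univ g) h

/-- **The rows of the small complex.** -/
theorem Th_sh {ι : Type} [Fintype ι] [DecidableEq ι] (δ : Mat ι (Av k)) (g g' : ι) {K : ℕ →₀ ℕ}
    (hK : mz p K < wz p 4) : Th p x (δ g g') (monomial (sh K) 1) =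
      x (X0 p δ (Pi.single g (monomial K 1)) g') := by
  have h := Grd.monomial_mem (wz p) K (Grd.triv k).one_mem
  rw [zero_add] at h
  rw [X0_single, ← Th_ren h hK, ren_monomial, C_1, x.map_one]

end Vale.Agent.P236M
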