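import Vale.Agent.P236A.Wt

/-!
# P236, block K2: the ring of operations

* `cmp_assoc`, `cmp_add_left`, `cmp_sum_right`, … : the operations form a ring under `cmp`;
* `rr n l` : the coefficient of `x ^ l` along the family `e_n(x)`; `cc a` : multiplication by `a`;
* `ev_actB` : the value of `actB x ξ q` at an arrow; `lin_cmp_rr` : left multiplication by `rr n l`;
* `Cg 𝔞 w ξ ξ'` : congruence modulo an invariant ideal in weights `≤ w`;
* `pb`, `pbw`, `cmp_pbw`, `RR_pbw` : operations in PBW form.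
-/

noncomputable section

namespace Vale.Agent.P236M

open Vale.Agent.P236A Vale.Agent.P236B MvPolynomial

variable (p : ℕ) [hp : Fact p.Prime] {k : Type} [CommRing k] {B B' : Type} [CommRing B]
  [CommRing B']

/-- operations -/
abbrev Op (k : Type) [CommRing k] : Type := (ℕ →₀ ℕ) → Av k

theorem cmp_apply (a b : Op k) (J : ℕ →₀ ℕ) :
    cmp p a b J = lin a (actG p b (monomial J 1)) := rfl

theorem cmp_assoc (a b c : Op k) : cmp p (cmp p a b) c = cmp p a (cmp p b c) := by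
  funext J
  rw [cmp_apply, ← lin_actG, actG_actG, cmp_apply]

theorem cmp_add_left (a a' b : Op k) : cmp p (a + a') b = cmp p a b + cmp p a' b :=
  funext fun _ => lin_add _ _ _

theorem cmp_smul_left (c : Av k) (a b : Op k) : cmp p (c • a) b = c • cmp p a b :=
  funext fun _ => lin_mul _ _ _

theorem cmp_zero_left (b : Op k) : cmp p 0 b = 0 := funext fun _ => lin_zero _

theorem cmp_add_right (a b b' : Op k) : cmp p a (b + b') = cmp p a b + cmp p a b' := by
  funext J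
  rw [Pi.add_apply, cmp_apply, cmp_apply, cmp_apply, ← map_add, ← actB_id, ← actB_id, ← actB_id, ← actB_add_left]
  rfl

theorem cmp_zero_right (a : Op k) : cmp p a 0 = 0 := by
  funext J
  rw [cmp_apply, ← actB_id]
  exact (congrArg _ (actB_zero_left p _ _)).trans (map_zero _)

/-- left multiplication -/
def cmpL (a : Op k) : Op k →+ Op k := AddMonoidHom.mk' (cmp p a) (cmp_add_right p a)

/-- right multiplication -/
def cmpR (b : Op k) : Op k →ₗ[Av k] Op k where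
  toFun a := cmp p a b
  map_add' a a' := cmp_add_left p a a' b
  map_smul' c a := cmp_smul_left p c a b

theorem cmp_sum_left {α : Type} (s : Finset α) (a : α → Op k) (b : Op k) :
    cmp p (∑ i ∈ s, a i) b = ∑ i ∈ s, cmp p (a i) b := map_sum (cmpR p b) a s

theorem cmp_sum_right {α : Type} (s : Finset α) (a : Op k) (b : α → Op k) :
    cmp p a (∑ i ∈ s, b i) = ∑ i ∈ s, cmp p a (b i) := map_sum (cmpL p a) b s

theorem cmp_sub_right (a b b' : Op k) : cmp p a (b - b') = cmp p a b - cmp p a b' :=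
  map_sub (cmpL p a) b b'

theorem cmp_sub_left (a a' b : Op k) : cmp p (a - a') b = cmp p a b - cmp p a' b :=
  map_sub (cmpR p b) a a'

omit hp in
theorem lin_single (J : ℕ →₀ ℕ) (b : B) (q : MvPolynomial ℕ B) :
    lin (Pi.single J b) q = coeff J q * b := by
  classical
  induction q using MvPolynomial.induction_on' with
  | monomial L c =>
    rw [lin_monomial, coeff_monomial, Pi.single_apply]
    split_ifs <;> simp
  | add q q' h h' => rw [map_add, h, h', coeff_add, add_mul]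

omit hp in
theorem map_single (x : Av k →+* B) (J : ℕ →₀ ℕ) (a : Av k) :
    (fun L => x ((Pi.single J a : Op k) L)) = Pi.single J (x a) :=
  funext fun L => Pi.apply_single (fun _ => x) (fun _ => map_zero x) J a L

/-- multiplication by `a` -/
def cc (a : Av k) : Op k := Pi.single 0 a

theorem actB_cc (x : Av k →+* B) (a : Av k) (q : MvPolynomial ℕ B) :
    actB p x (cc a) q = q * etaB p x a := by
  rw [actB, cc, map_single, lin_single, ← constantCoeff_eq, constantCoeff_RB]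

theorem cmp_cc_left (a : Av k) (b : Op k) : cmp p (cc a) b = a • b := by
  funext J
  rw [cmp_apply, cc, lin_single, ← constantCoeff_eq, constantCoeff_actG, lin_one, mul_comm]
  rfl

theorem lin_cmp_cc (a : Op k) (c : Av k) (γ : Gm k) :
    lin (cmp p a (cc c)) γ = lin a (γ * etaR p k c) := by
  rw [← lin_actG, ← actB_id, actB_cc, etaB_id]

theorem cmp_one_left (b : Op k) : cmp p (cc 1) b = b := by rw [cmp_cc_left, one_smul]

theorem cmp_one_right (a : Op k) : cmp p a (cc 1) = a := by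
  funext J
  rw [← lin_one (cmp p a (cc 1)), lin_cmp_cc, (etaR p k).map_one, mul_one, lin_one]

/-- the coefficient of `x ^ l` along the family `e_n(x)` -/
def rr (n l : ℕ) : Op k := Pi.single (Finsupp.single n l) 1

omit hp in
theorem rr_zero (n : ℕ) : (rr n 0 : Op k) = cc 1 := by rw [rr, Finsupp.single_zero, cc]

theorem cmp_rr (n l : ℕ) (ξ : Op k) (J : ℕ →₀ ℕ) :
    cmp p (rr n l) ξ J = coeff (Finsupp.single n l) (actG p ξ (monomial J 1)) := by
  rw [cmp_apply, rr, lin_single, mul_one]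

/-- left translation by the arrow `t` which starts at `x` -/
def trL (ψ : B →+* B') (x : Av k →+* B) (t : ℕ → B') : MvPolynomial ℕ B →+* MvPolynomial ℕ B' :=
  eval₂Hom (C.comp ψ) (del p (fun i => C (ψ (x (X i)))) (fun i => C (t i)) X)

theorem map_RB_eq (ψ : B →+* B') (x : Av k →+* B) (t : ℕ → B') (q : MvPolynomial ℕ B) :
    map (eval₂Hom ψ t) (RB p x q) = trL p ψ x t q := by
  refine DFunLike.congr_fun (f := (map (eval₂Hom ψ t)).comp (RB p x))
    (MvPolynomial.ringHom_ext (fun b => ?_) fun i => ?_) q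
  · simp [RB_C, trL]
  · rw [RingHom.comp_apply, RB_X, map_del]
    simp [trL]

/-- **The value of `actB x ξ q` at an arrow.** -/
theorem ev_actB (ψ : B →+* B') (x : Av k →+* B) (t : ℕ → B') (ξ : Op k) (q : MvPolynomial ℕ B) :
    eval₂Hom ψ t (actB p x ξ q) = lin (fun L => tgt p (ψ.comp x) t (ξ L)) (trL p ψ x t q) := by
  rw [actB, map_lin, map_RB_eq]
  congr 2
  funext L
  have h := DFunLike.congr_fun (comp_etaB p (eval₂Hom ψ t) x) (ξ L)
  simpa only [eval₂Hom_comp_C, eval₂Hom_X', RingHom.comp_apply] using h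

omit hp in
theorem coeff_fam (n l : ℕ) (q : MvPolynomial ℕ B) :
    (eval₂Hom Polynomial.C (Pi.single n Polynomial.X) q).coeff l =
      coeff (Finsupp.single n l) q := by
  classical
  induction q using MvPolynomial.induction_on' with
  | add q q' h h' => rw [map_add, Polynomial.coeff_add, h, h', coeff_add]
  | monomial J c =>
    rw [eval₂Hom_monomial, coeff_monomial, Polynomial.coeff_C_mul]
    by_cases h : J.support ⊆ {n}
    · obtain ⟨m, rfl⟩ : ∃ m, J = Finsupp.single n m := ⟨_, Finsupp.support_subset_singleton.1 h⟩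
      rw [Finsupp.prod_single_index (by exact pow_zero _), Pi.single_eq_same, Polynomial.coeff_X_pow]
      simp [eq_comm, (Finsupp.single_injective n).eq_iff]
    · obtain ⟨i, h1, h2⟩ := Finset.not_subset.1 h
      rw [Finsupp.prod, Finset.prod_eq_zero h1, Polynomial.coeff_zero, mul_zero, if_neg]
      · rintro rfl
        exact h Finsupp.support_single_subset
      · rw [Pi.single_eq_of_ne (by simpa using h2), zero_pow (Finsupp.mem_support_iff.1 h1)]

/-- **Left multiplication by `rr n l`.** -/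
theorem lin_cmp_rr (x : Av k →+* B) (n l : ℕ) (ξ : Op k) (q : MvPolynomial ℕ B) :
    lin (fun J => x (cmp p (rr n l) ξ J)) q =
      (lin (fun L => tgt p (Polynomial.C.comp x) (Pi.single n Polynomial.X) (ξ L))
        (trL p Polynomial.C x (Pi.single n Polynomial.X) q)).coeff l := by
  rw [← lin_actB, rr, map_single, lin_single, map_one, mul_one, ← ev_actB, coeff_fam]

/-! ### weights and congruences -/

/-- operations which raise the weight by `e` -/
def Dg (e : ℤ) (ξ : Op k) : Prop := ∀ J, ξ J ∈ (gA p k).G (mz p J + e)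

variable {p}

theorem Dg.cmp {e e' : ℤ} {a b : Op k} (ha : Dg p e a) (hb : Dg p e' b) :
    Dg p (e + e') (cmp p a b) := fun J => by
  have h := Grd.monomial_mem (wz p) J (gA p k).one_mem
  exact (gA p k).cast (lin_mem_G p (actG_mem_G p hb h) ha) (by rw [mz]; ring)

omit hp in
theorem Dg.smul {e w : ℤ} {c : Av k} {a : Op k} (hc : c ∈ (gA p k).G w) (ha : Dg p e a) :
    Dg p (w + e) (c • a) := fun J => (gA p k).cast ((gA p k).mul_mem hc (ha J)) (by ring)

omit hp in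
theorem Dg.sum {α : Type} {e : ℤ} {s : Finset α} {a : α → Op k} (h : ∀ i ∈ s, Dg p e (a i)) :
    Dg p e (∑ i ∈ s, a i) := fun J => by
  rw [Finset.sum_apply]
  exact sum_mem fun i hi => h i hi J

omit hp in
theorem Dg.cast {e e' : ℤ} {a : Op k} (h : Dg p e a) (he : e = e') : Dg p e' a := he ▸ h

omit hp in
theorem dg_single (J : ℕ →₀ ℕ) {w : ℤ} {c : Av k} (hc : c ∈ (gA p k).G w) :
    Dg p (w - mz p J) (Pi.single J c) := fun L => by
  by_cases h : L = J
  · rw [h, Pi.single_eq_same, add_sub_cancel]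
    exact hc
  · rw [Pi.single_eq_of_ne h]
    exact zero_mem _

omit hp in
theorem dg_rr (n l : ℕ) : Dg p (-(l * wz p n)) (rr n l : Op k) :=
  (dg_single _ (gA p k).one_mem).cast (by rw [mz, Finsupp.weight_single, nsmul_eq_mul, zero_sub])

theorem Dg.eq_zero {e : ℤ} {a : Op k} (h : Dg p e a) {J : ℕ →₀ ℕ} (hJ : mz p J + e < 0) :
    a J = 0 := nonNeg_gA p _ _ (h J) hJ

variable (p) in
/-- congruence in weights `≤ w` -/
def Cg (𝔞 : Ideal (Av k)) (w : ℤ) (a a' : Op k) : Prop := ∀ J, mz p J ≤ w → a J - a' J ∈ 𝔞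

omit hp in
theorem Cg.refl (𝔞 : Ideal (Av k)) (w : ℤ) (a : Op k) : Cg p 𝔞 w a a := fun J _ => by
  rw [sub_self]
  exact zero_mem _

omit hp in
theorem Cg.symm {𝔞 : Ideal (Av k)} {w : ℤ} {a a' : Op k} (h : Cg p 𝔞 w a a') : Cg p 𝔞 w a' a :=
  fun J hJ => by
    rw [← neg_sub]
    exact neg_mem (h J hJ)

omit hp in
theorem Cg.trans {𝔞 : Ideal (Av k)} {w : ℤ} {a b c : Op k} (h : Cg p 𝔞 w a b)
    (h' : Cg p 𝔞 w b c) : Cg p 𝔞 w a c := fun J hJ => by
  rw [← sub_add_sub_cancel _ (b J)]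
  exact add_mem (h J hJ) (h' J hJ)

omit hp in
theorem Cg.mono {𝔞 𝔟 : Ideal (Av k)} {w w' : ℤ} {a a' : Op k} (h : Cg p 𝔞 w a a') (h𝔞 : 𝔞 ≤ 𝔟)
    (hw : w' ≤ w) : Cg p 𝔟 w' a a' := fun J hJ => h𝔞 (h J (hJ.trans hw))

omit hp in
theorem Cg.smul {𝔞 : Ideal (Av k)} {w : ℤ} {c c' : Av k} {a a' : Op k} (hc : c - c' ∈ 𝔞)
    (h : Cg p 𝔞 w a a') : Cg p 𝔞 w (c • a) (c' • a') := fun J hJ => by
  have e : (c • a) J - (c' • a') J = c * (a J - a' J) + (c - c') * a' J := by
    simp only [Pi.smul_apply, smul_eq_mul]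
    ring
  rw [e]
  exact add_mem (Ideal.mul_mem_left _ _ (h J hJ)) (Ideal.mul_mem_right _ _ hc)

omit hp in
theorem Cg.sum {α : Type} {𝔞 : Ideal (Av k)} {w : ℤ} {s : Finset α} {a a' : α → Op k}
    (h : ∀ i ∈ s, Cg p 𝔞 w (a i) (a' i)) : Cg p 𝔞 w (∑ i ∈ s, a i) (∑ i ∈ s, a' i) :=
  fun J hJ => by
    rw [Finset.sum_apply, Finset.sum_apply, ← Finset.sum_sub_distrib]
    exact Ideal.sum_mem _ fun i hi => h i hi J hJ

theorem mz_le_of_RG {J L : ℕ →₀ ℕ} (h : coeff L (RG p k (monomial J 1)) ≠ 0) :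
    mz p L ≤ mz p J := by
  have h1 := Grd.monomial_mem (wz p) J (gA p k).one_mem
  rw [zero_add] at h1
  exact le_of_coeff_RG p h1 h

/-- the right hand factor only matters modulo an invariant ideal -/
theorem Cg.cmp_right {𝔞 : Ideal (Av k)} (h𝔞 : Inv p 𝔞) {w : ℤ} (a : Op k) {b b' : Op k}
    (h : Cg p 𝔞 w b b') : Cg p 𝔞 w (cmp p a b) (cmp p a b') := fun J hJ => by
  rw [← Pi.sub_apply, ← cmp_sub_right]
  exact lin_mem_left (actG_mem p h𝔞 fun L hL => h L ((mz_le_of_RG hL).trans hJ))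

/-- the left hand factor only matters modulo the ideal -/
theorem Cg.cmp_left {𝔞 : Ideal (Av k)} {w e : ℤ} {a a' b : Op k} (hb : Dg p e b)
    (h : Cg p 𝔞 (w + e) a a') : Cg p 𝔞 w (cmp p a b) (cmp p a' b) := fun J hJ => by
  rw [← Pi.sub_apply, ← cmp_sub_left]
  refine lin_mem fun L hL => h L ?_
  have h1 := (nonNeg_gA p).le (actG_mem_G p hb (Grd.monomial_mem (wz p) J (gA p k).one_mem)) hL
  simp only [mz] at hJ ⊢
  omega

/-! ### the PBW form -/

variable (p) in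
/-- `r_(2,l₂) r_(3,l₃) r_(4,l₄) ξ` -/
def pb (l : ℕ × ℕ × ℕ) (ξ : Op k) : Op k :=
  cmp p (rr 1 l.1) (cmp p (rr 2 l.2.1) (cmp p (rr 3 l.2.2) ξ))

theorem cmp_pb (l : ℕ × ℕ × ℕ) (ξ ξ' : Op k) : cmp p (pb p l ξ) ξ' = pb p l (cmp p ξ ξ') := by
  simp only [pb, cmp_assoc]

variable (p) in
/-- the weight of `(l₂, l₃, l₄)` -/
def wl (l : ℕ × ℕ × ℕ) : ℤ := l.1 * wz p 1 + l.2.1 * wz p 2 + l.2.2 * wz p 3

theorem Dg.pb {e : ℤ} {ξ : Op k} (h : Dg p e ξ) (l : ℕ × ℕ × ℕ) : Dg p (e - wl p l) (pb p l ξ) :=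
  ((dg_rr 1 l.1).cmp ((dg_rr 2 l.2.1).cmp ((dg_rr 3 l.2.2).cmp h))).cast (by rw [wl]; ring)

theorem Cg.pb {𝔞 : Ideal (Av k)} (h𝔞 : Inv p 𝔞) {w : ℤ} {b b' : Op k} (h : Cg p 𝔞 w b b')
    (l : ℕ × ℕ × ℕ) : Cg p 𝔞 w (pb p l b) (pb p l b') :=
  ((h.cmp_right h𝔞 _).cmp_right h𝔞 _).cmp_right h𝔞 _

variable (p) in
/-- `∑ r_(1,l₁) a(l₁, l) r_(2,l₂) r_(3,l₃) r_(4,l₄) ξ` -/
def pbw (M : ℕ) (s : Finset (ℕ × ℕ × ℕ)) (a : ℕ → ℕ × ℕ × ℕ → Av k) (ξ : Op k) : Op k :=
  ∑ l₁ ∈ Finset.range M, cmp p (rr 0 l₁) (∑ l ∈ s, a l₁ l • pb p l ξ)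

theorem cmp_pbw (M : ℕ) (s : Finset (ℕ × ℕ × ℕ)) (a : ℕ → ℕ × ℕ × ℕ → Av k) (ξ ξ' : Op k) :
    cmp p (pbw p M s a ξ) ξ' = pbw p M s a (cmp p ξ ξ') := by
  simp only [pbw, cmp_sum_left, cmp_assoc, cmp_smul_left, cmp_pb]

theorem Dg.pbw {M : ℕ} {s : Finset (ℕ × ℕ × ℕ)} {a : ℕ → ℕ × ℕ × ℕ → Av k} {ξ : Op k} {e e' : ℤ}
    (ha : ∀ (l₁ : ℕ) l, a l₁ l ∈ (gA p k).G (l₁ * wz p 0 + wl p l + e')) (h : Dg p e ξ) :
    Dg p (e + e') (pbw p M s a ξ) :=
  Dg.sum fun l₁ _ => ((dg_rr 0 l₁).cmp (Dg.sum (e := l₁ * wz p 0 + e + e') fun l _ =>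
    (Dg.smul (ha l₁ l) (h.pb l)).cast (by ring))).cast (by ring)

variable {ι : Type} [Fintype ι]

/-- **Meet in the middle.** -/
theorem RR_pbw {M : ℕ} {s : Finset (ℕ × ℕ × ℕ)} {a : ι → ι → ℕ → ℕ × ℕ × ℕ → Av k}
    {δ' δ : Mat ι (Av k)} {g g'' : ι} (h : ∀ g', δ' g' g'' = pbw p M s (a g' g'') (cc 1)) :
    RR p δ' δ g g'' = ∑ l₁ ∈ Finset.range M,
      cmp p (rr 0 l₁) (∑ g', ∑ l ∈ s, a g' g'' l₁ l • pb p l (δ g g')) := by
  have e : RR p δ' δ g g'' = ∑ g', cmp p (δ' g' g'') (δ g g') :=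
    _root_.funext fun J => by rw [Finset.sum_apply, RR_eq]
  rw [e, Finset.sum_congr rfl fun l₁ _ => cmp_sum_right p _ _ _, Finset.sum_comm]
  exact Finset.sum_congr rfl fun g' _ => by rw [h, cmp_pbw, cmp_one_left, pbw]

end Vale.Agent.P236M
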